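import Vale.Agent.P078.Twist.Start.Op
import Vale.Agent.P078.Twist.Weight

/-!
The weights along words are read off in the algebra; the start from the transport statement.
-/

namespace Vale.Agent.P078.Twist.Start

open MKS MKS.Op Singular

theorem weight_rep_ok : WeightRepStatement := by
  intro H _ _ _ M A e φ hM he hφ D hD n a
  obtain ⟨ρ, hρ⟩ := exists_dens_words hM he hD n a
  have hc : e * words D n a * e = words D n a := by
    refine Fin.cases ?_ (fun k => ?_) a
    · simp [words, he.2.isIdempotentElem.eq]
    · simpa [words] using word_corner D he n _
  exact ⟨ρ, hρ.1, fun χ η hm => (ev_dens hM he hφ (words_nor hM he D n a) hc hρ hm).symm⟩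

/-- The start from the transport statement alone. -/
theorem start_of_transport (hTr : TransportStatement) : StartStatement :=
  start_ok weight_ok hTr weight_rep_ok

end Vale.Agent.P078.Twist.Start
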