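import Vale.Agent.P078.Twist.Start.Gen

/-!
Derivatives of moments along curves of scales.
-/

namespace Vale.Agent.P078.Twist.Start

open MKS Finset
open scoped Classical

lemma hasDerivAt_eval {ι : Type} [Fintype ι] [DecidableEq ι] (F : MvPolynomial ι ℂ)
    {z : ℝ → ι → ℂ} {z' : ι → ℂ} {x : ℝ} (hz : ∀ i, HasDerivAt (fun s => z s i) (z' i) x) :
    HasDerivAt (fun s => MvPolynomial.eval (z s) F)
      (∑ i, MvPolynomial.eval (z x) (MvPolynomial.pderiv i F) * z' i) x := by
  induction F using MvPolynomial.induction_on with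
  | C a => simpa using hasDerivAt_const x a
  | add f g hf hg =>
    exact ((hf.add hg).congr_of_eventuallyEq (Filter.Eventually.of_forall fun s => by simp)).congr_deriv
      (by simp [Finset.sum_add_distrib, add_mul])
  | mul_X f i hf =>
    refine ((hf.mul (hz i)).congr_of_eventuallyEq
      (Filter.Eventually.of_forall fun s => by simp)).congr_deriv ?_
    simp only [MvPolynomial.pderiv_mul, map_add, map_mul, MvPolynomial.eval_X, add_mul,
      Finset.sum_add_distrib, Finset.sum_mul, MvPolynomial.pderiv_X]
    congr 1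
    · exact Finset.sum_congr rfl fun j _ => by ring
    · rw [Finset.sum_eq_single i (fun j _ hj => by simp [Pi.single_eq_of_ne' hj]) (by simp)]
      simp

variable {V : Type} [Fintype V] [DecidableEq V] {r : ℕ} {pw : V → Fin r → ℝ}

/-- The derivative of the moment at `k` in the scale of the row `v`. -/
noncomputable def slope (pw : V → Fin r → ℝ) (j : ℕ) (X : Matrix V V ℂ) (t : V → ℝ) (k v : V) :
    ℝ :=
  (MvPolynomial.eval (point t X) (MvPolynomial.pderiv (Sum.inl v) (genMom pw k j))).re

lemma hasDerivAt_mom (hp : IsProb pw) (j : ℕ) (X : Matrix V V ℂ) (k : V) {t : ℝ → V → ℝ}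
    {t' : V → ℝ} {x : ℝ} (ht : ∀ v, HasDerivAt (fun s => t s v) (t' v) x) :
    HasDerivAt (fun s => (mom (rows (t s) X) (cw pw) k j).re)
      (∑ v, slope pw j X (t x) k v * t' v) x := by
  have h := hasDerivAt_eval (genMom pw k j) (z := fun s => point (t s) X)
    (z' := Sum.elim (fun v => (t' v : ℂ)) 0) (x := x) (fun i => by
      rcases i with v | q
      · exact (ht v).ofReal_comp
      · exact hasDerivAt_const x (X q.1 q.2))
  simp only [eval_genMom hp, Fintype.sum_sum_type, Sum.elim_inl, Sum.elim_inr, Pi.zero_apply,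
    mul_zero, Finset.sum_const_zero, add_zero] at h
  have h2 := Complex.reCLM.hasFDerivAt.comp_hasDerivAt x h
  simpa [slope, Function.comp_def] using h2

lemma mom_rows_smul (hp : IsProb pw) (j : ℕ) (X : Matrix V V ℂ) (k : V) (s : ℝ) (t : V → ℝ) :
    (mom (rows (fun v => s * t v) X) (cw pw) k j).re =
      s ^ j * (mom (rows t X) (cw pw) k j).re := by
  have e : rows (fun v => s * t v) X = (rows t X).map fun a => (s : ℂ) * a := by
    ext a b
    simp [rows]; ring
  rw [e, Moments.mom_smul _ _ _ (sum_cw hp), ← Complex.ofReal_pow, Complex.re_ofReal_mul]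

/-- Euler's identity. -/
lemma sum_slope (hp : IsProb pw) (j : ℕ) (X : Matrix V V ℂ) (t : V → ℝ) (k : V) :
    ∑ v, slope pw j X t k v * t v = j * (mom (rows t X) (cw pw) k j).re := by
  have h1 := hasDerivAt_mom hp j X k (t := fun s v => s * t v) (t' := t) (x := 1)
    fun v => by simpa using (hasDerivAt_id' (1 : ℝ)).mul_const (t v)
  simp only [one_mul] at h1
  simp only [mom_rows_smul hp] at h1
  have h2 := (hasDerivAt_pow j (1 : ℝ)).mul_const (mom (rows t X) (cw pw) k j).re
  simpa using h1.unique h2

lemma slope_symm (hp : IsProb pw) (j : ℕ) (X : Matrix V V ℂ) (t : V → ℝ) (k v : V) :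
    t v * slope pw j X t k v = t k * slope pw j X t v k := by
  have h := congrArg (fun F => (MvPolynomial.eval (point t X) F).re) (dlog_genMom_symm hp k v j)
  simpa [dlog, slope, point] using h

lemma slope_partial (hp : IsProb pw) (j : ℕ) (X : Matrix V V ℂ) (k v : V) (t : V → ℝ) :
    HasDerivAt (fun s => (mom (rows (Function.update t v s) X) (cw pw) k j).re)
      (slope pw j X t k v) (t v) := by
  have h := hasDerivAt_mom hp j X k (t := fun s => Function.update t v s)
    (t' := Pi.single v 1) (x := t v) fun u => by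
      rcases eq_or_ne u v with rfl | hu
      · simpa using hasDerivAt_id' (t u)
      · simpa [hu] using hasDerivAt_const (t v) (t u)
  rw [Finset.sum_eq_single v (fun u _ hu => by simp [hu]) (by simp)] at h
  simpa using h

lemma slope_eq_zero (hp : IsProb pw) {j : ℕ} {X : Matrix V V ℂ} (t : V → ℝ) {k v : V}
    (hv : v ∉ reach X k j) : slope pw j X t k v = 0 := by
  have hc : ∀ s, (mom (rows (Function.update t v s) X) (cw pw) k j).re =
      (mom (rows t X) (cw pw) k j).re := by
    intro s
    let W : Type := {u : V // u ∈ reach X k j}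
    let k₀ : W := ⟨k, Moments.mem_reach_self X k j⟩
    have hr : ∀ t' : V → ℝ, reach (rows t' X) k j ⊆ Set.range (Subtype.val : W → V) :=
      fun t' u hu => ⟨⟨u, Moments.reach_of_le _ _ k (fun a b hab h0 => hab (by
        simp [rows, h0])) j hu⟩, rfl⟩
    rw [show k = (k₀ : V) from rfl,
      Moments.mom_local (cw pw) (sum_cw hp) (Subtype.val : W → V) Subtype.val_injective _ k₀ j (hr _),
      Moments.mom_local (cw pw) (sum_cw hp) (Subtype.val : W → V) Subtype.val_injective _ k₀ j (hr _)]
    congr 2
    ext a b
    simp [rows, show (a : V) ≠ v from fun h => hv (h ▸ a.2)]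
  have h := slope_partial hp j X k v t
  simp only [hc] at h
  exact h.unique (hasDerivAt_const _ _)

/-- The slopes are homogeneous. -/
lemma slope_smul (hp : IsProb pw) (j : ℕ) (X : Matrix V V ℂ) (t : V → ℝ) (k v : V) (c : ℝ) :
    c * slope pw j X (fun u => c * t u) k v = c ^ j * slope pw j X t k v := by
  have h1 := hasDerivAt_mom hp j X k (t := fun s u => c * Function.update t v s u)
    (t' := fun u => c * (Pi.single v 1 : V → ℝ) u) (x := t v) fun u => by
      rcases eq_or_ne u v with rfl | hu
      · simpa using (hasDerivAt_id' (t u)).const_mul c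
      · simpa [hu] using hasDerivAt_const (t v) (c * t u)
  rw [Finset.sum_eq_single v (fun u _ hu => by simp [hu]) (by simp)] at h1
  simp only [mom_rows_smul hp, Function.update_eq_self, Pi.single_eq_same, mul_one] at h1
  rw [mul_comm c]
  exact h1.unique ((slope_partial hp j X k v t).const_mul (c ^ j))

lemma continuous_slope {Z : Type*} [TopologicalSpace Z] (j : ℕ) {X : Z → Matrix V V ℂ}
    (hX : ∀ a b, Continuous fun z => X z a b) {t : Z → V → ℝ} (ht : ∀ a, Continuous fun z => t z a)
    (k v : V) : Continuous fun z => slope pw j (X z) (t z) k v := by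
  refine Complex.continuous_re.comp ((MvPolynomial.continuous_eval _).comp (continuous_pi ?_))
  rintro (a | q)
  · exact Complex.continuous_ofReal.comp (ht a)
  · exact hX q.1 q.2

end Vale.Agent.P078.Twist.Start
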