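import Mathlib

/-!
The regularised scales of the twisted potential and their reparametrisation.
-/

namespace Vale.Agent.P078.Twist.Start

open Real Set

/-- The denominator of the scale. -/
noncomputable def den (p : ℕ) (w x : ℝ) : ℝ := max (1 - x ^ (2 * p)) 0 + x ^ (2 * p) / w ^ 2

/-- The scale of weight `w` at the time `x`: from `0` at `0` to `w ^ (1/p)` at `1`. -/
noncomputable def scale (p : ℕ) (w x : ℝ) : ℝ := x * den p w x ^ (-(1 / (2 * p) : ℝ))

/-- Its velocity. -/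
noncomputable def speed (p : ℕ) (w x : ℝ) : ℝ := den p w x ^ (-(1 / (2 * p) : ℝ)) / den p w x

variable {p : ℕ} {w x : ℝ}

lemma den_pos (hp : 0 < p) (hw : 0 < w) (x : ℝ) : 0 < den p w x := by
  have h0 : (0 : ℝ) ≤ x ^ (2 * p) := by rw [pow_mul]; positivity
  rcases eq_or_ne x 0 with rfl | hx
  · simp [den, zero_pow (by omega : 2 * p ≠ 0)]
  · have : 0 < x ^ (2 * p) := lt_of_le_of_ne h0 (Ne.symm (pow_ne_zero _ hx))
    exact add_pos_of_nonneg_of_pos (le_max_right _ _) (by positivity)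

lemma den_eq (hx : |x| ≤ 1) : den p w x = 1 - x ^ (2 * p) + x ^ (2 * p) / w ^ 2 := by
  have : x ^ (2 * p) ≤ 1 := by
    rw [pow_mul, ← sq_abs]
    exact pow_le_one₀ (by positivity) (pow_le_one₀ (abs_nonneg _) hx)
  rw [den, max_eq_left (sub_nonneg.2 this)]

lemma scale_nonneg (hp : 0 < p) (hw : 0 < w) (hx : 0 ≤ x) : 0 ≤ scale p w x :=
  mul_nonneg hx (rpow_nonneg (den_pos hp hw x).le _)

lemma scale_zero : scale p w 0 = 0 := by simp [scale]

lemma rpow_scale_pow (hp : 0 < p) {a : ℝ} (ha : 0 ≤ a) :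
    (a ^ (-(1 / (2 * p) : ℝ))) ^ (2 * p) = a⁻¹ := by
  rw [← rpow_natCast, ← rpow_mul ha, ← rpow_neg_one a]
  congr 1
  push_cast
  field_simp

lemma scale_one (hp : 0 < p) (hw : 0 < w) : scale p w 1 = w ^ (1 / (p : ℝ)) := by
  rw [scale, den_eq (by norm_num), one_pow, sub_self, zero_add, one_mul,
    show (1 : ℝ) / w ^ 2 = w ^ (-2 : ℝ) by rw [rpow_neg hw.le, rpow_two, one_div],
    ← rpow_mul hw.le]
  congr 1
  field_simp

lemma scale_eq_mul (hp : 0 < p) (hw : 0 < w) : scale p w x = speed p w x * x * den p w x := by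
  rw [speed, scale]
  field_simp [(den_pos hp hw x).ne']

lemma continuous_den {Z : Type*} [TopologicalSpace Z] {f g : Z → ℝ} (hf : Continuous f)
    (hg : Continuous g) (hf0 : ∀ z, 0 < f z) : Continuous fun z => den p (f z) (g z) := by
  unfold den
  exact ((continuous_const.sub (hg.pow _)).max continuous_const).add
    ((hg.pow _).div (hf.pow 2) fun z => (pow_pos (hf0 z) 2).ne')

lemma continuous_speed {Z : Type*} [TopologicalSpace Z] (hp : 0 < p) {f g : Z → ℝ}
    (hf : Continuous f) (hg : Continuous g) (hf0 : ∀ z, 0 < f z) :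
    Continuous fun z => speed p (f z) (g z) :=
  ((continuous_den hf hg hf0).rpow_const fun _ => Or.inl (den_pos hp (hf0 _) _).ne').div
    (continuous_den hf hg hf0) fun _ => (den_pos hp (hf0 _) _).ne'

lemma continuous_scale {Z : Type*} [TopologicalSpace Z] (hp : 0 < p) {f g : Z → ℝ}
    (hf : Continuous f) (hg : Continuous g) (hf0 : ∀ z, 0 < f z) :
    Continuous fun z => scale p (f z) (g z) :=
  hg.mul ((continuous_den hf hg hf0).rpow_const fun _ => Or.inl (den_pos hp (hf0 _) _).ne')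

lemma hasDerivAt_scale (hp : 0 < p) (hw : 0 < w) (hx : x ∈ Ioo (-1 : ℝ) 1) :
    HasDerivAt (scale p w) (speed p w x) x := by
  set q : ℝ → ℝ := fun s => 1 - s ^ (2 * p) + s ^ (2 * p) / w ^ 2 with hq
  have hqx : den p w x = q x := den_eq (abs_le.2 ⟨hx.1.le, hx.2.le⟩)
  have hpos : 0 < q x := hqx ▸ den_pos hp hw x
  have h1 : HasDerivAt q (-((2 * p : ℕ) * x ^ (2 * p - 1)) +
      (2 * p : ℕ) * x ^ (2 * p - 1) / w ^ 2) x :=
    ((hasDerivAt_pow (2 * p) x).const_sub 1).add ((hasDerivAt_pow (2 * p) x).div_const _)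
  have h2 := (hasDerivAt_id' x).mul (h1.rpow_const (p := -(1 / (2 * p) : ℝ)) (Or.inl hpos.ne'))
  have heq : scale p w =ᶠ[nhds x] fun s => s * q s ^ (-(1 / (2 * p) : ℝ)) := by
    filter_upwards [isOpen_Ioo.mem_nhds hx] with s hs
    rw [scale, den_eq (abs_le.2 ⟨hs.1.le, hs.2.le⟩)]
  refine (h2.congr_of_eventuallyEq heq).congr_deriv ?_
  rw [speed, hqx, rpow_sub_one hpos.ne']
  have hp' : (p : ℝ) ≠ 0 := by positivity
  have hxx : x * x ^ (2 * p - 1) = x ^ (2 * p) := by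
    rw [← pow_succ', Nat.sub_add_cancel (by omega)]
  push_cast
  have hqd : q x = 1 - x ^ (2 * p) + x ^ (2 * p) / w ^ 2 := rfl
  field_simp
  rw [hqd]
  field_simp
  linear_combination (-hxx) * (1 - w ^ 2)

/-- The reparametrisation which multiplies all weights by `c`. -/
lemma den_comp (hp : 0 < p) (hw : 0 < w) {c : ℝ} (hc : 0 < c) (hx : x ∈ Icc (0 : ℝ) 1) :
    (c ^ (1 / (p : ℝ)) * scale p (1 / c) x) ∈ Icc (0 : ℝ) 1 ∧
      den p (c * w) (c ^ (1 / (p : ℝ)) * scale p (1 / c) x) = den p w x / den p (1 / c) x := by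
  have hxa : |x| ≤ 1 := abs_le.2 ⟨by linarith [hx.1], hx.2⟩
  have hc1 : 0 < 1 / c := by positivity
  have hQ := den_pos hp hc1 x
  set y := c ^ (1 / (p : ℝ)) * scale p (1 / c) x
  have hy0 : 0 ≤ y := mul_nonneg (rpow_nonneg hc.le _) (scale_nonneg hp hc1 hx.1)
  have hy : y ^ (2 * p) = c ^ 2 * x ^ (2 * p) / den p (1 / c) x := by
    rw [mul_pow, scale, mul_pow, rpow_scale_pow hp hQ.le, ← rpow_natCast (c ^ _) (2 * p),
      ← rpow_mul hc.le, show (1 / (p : ℝ)) * ((2 * p : ℕ) : ℝ) = (2 : ℝ) by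
        push_cast; field_simp, rpow_two]
    ring
  have hden := den_eq (p := p) (w := 1 / c) hxa
  have hy1 : y ≤ 1 := by
    by_contra h
    have h' : 1 < y ^ (2 * p) := one_lt_pow₀ (not_le.1 h) (by omega)
    rw [hy, lt_div_iff₀ hQ, hden, one_mul] at h'
    have : x ^ (2 * p) / (1 / c) ^ 2 = c ^ 2 * x ^ (2 * p) := by field_simp
    have : x ^ (2 * p) ≤ 1 := pow_le_one₀ hx.1 hx.2
    linarith
  refine ⟨⟨hy0, hy1⟩, ?_⟩
  rw [den_eq (abs_le.2 ⟨by linarith, hy1⟩), hy, den_eq (w := w) hxa]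
  field_simp
  rw [hden]
  field_simp
  ring

lemma scale_comp (hp : 0 < p) (hw : 0 < w) {c : ℝ} (hc : 0 < c) (hx : x ∈ Icc (0 : ℝ) 1) :
    scale p (c * w) (c ^ (1 / (p : ℝ)) * scale p (1 / c) x) = c ^ (1 / (p : ℝ)) * scale p w x ∧
      speed p (c * w) (c ^ (1 / (p : ℝ)) * scale p (1 / c) x) *
          (c ^ (1 / (p : ℝ)) * speed p (1 / c) x) = c ^ (1 / (p : ℝ)) * speed p w x := by
  have hQ := den_pos hp (show (0 : ℝ) < 1 / c by positivity) x
  have hq := den_pos hp hw x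
  have h := (den_comp hp hw hc hx).2
  have hQn : den p (1 / c) x ^ (-(1 / (2 * p) : ℝ)) ≠ 0 := (rpow_pos_of_pos hQ _).ne'
  constructor
  · conv_lhs => rw [scale, h, div_rpow hq.le hQ.le]
    simp only [scale]
    field_simp
  · simp only [speed, h, div_rpow hq.le hQ.le]
    field_simp

end Vale.Agent.P078.Twist.Start
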