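import Vale.Agent.P078.MKS.MomentsLocal
import Vale.Agent.P078.MKS.TwoSided.Defs
import Vale.Agent.P078.MKS.Root
import Vale.Agent.P078.MKS.Moments

/-!
Moments as polynomials in the scales of the rows and the entries: the symmetric second derivative.
-/

namespace Vale.Agent.P078.Twist.Start

open MKS Finset
open scoped Classical

variable {V : Type} [Fintype V] [DecidableEq V] {r : ℕ}

/-- The variables: one scale for each row and one for each entry. -/
abbrev GenRing (V : Type) : Type := MvPolynomial (V ⊕ V × V) ℂ

/-- The generic matrix with scaled rows. -/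
noncomputable def genMat (V : Type) : Matrix V V (GenRing V) :=
  Matrix.of fun a b => MvPolynomial.X (Sum.inl a) * MvPolynomial.X (Sum.inr (a, b))

/-- Weights as constant polynomials. -/
noncomputable def cpw (pw : V → Fin r → ℝ) : V → Fin r → GenRing V :=
  fun v i => MvPolynomial.C (cw pw v i)

/-- The derivative in the logarithm of the scale of the row `v`, on polynomials. -/
noncomputable def dlog (v : V) (F : GenRing V) : GenRing V :=
  MvPolynomial.X (Sum.inl v) * MvPolynomial.pderiv (Sum.inl v) F

/-- The same on power series. -/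
noncomputable def ser (v : V) (F : PowerSeries (GenRing V)) : PowerSeries (GenRing V) :=
  PowerSeries.mk fun n => dlog v (PowerSeries.coeff n F)

omit [Fintype V] in
lemma dlog_mul (v : V) (F G : GenRing V) : dlog v (F * G) = F * dlog v G + dlog v F * G := by
  simp only [dlog, MvPolynomial.pderiv_mul]
  ring

omit [Fintype V] [DecidableEq V] in
lemma coeff_ser (v : V) (F : PowerSeries (GenRing V)) (n : ℕ) :
    PowerSeries.coeff n (ser v F) = dlog v (PowerSeries.coeff n F) :=
  PowerSeries.coeff_mk _ _

omit [Fintype V] [DecidableEq V] in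
lemma dlog_sum {ι : Type*} (v : V) (s : Finset ι) (F : ι → GenRing V) :
    dlog v (∑ i ∈ s, F i) = ∑ i ∈ s, dlog v (F i) := by
  simp only [dlog, map_sum, Finset.mul_sum]

omit [Fintype V] in
lemma ser_mul (v : V) (F G : PowerSeries (GenRing V)) :
    ser v (F * G) = F * ser v G + ser v F * G := by
  ext1 n
  simp only [coeff_ser, map_add, PowerSeries.coeff_mul, dlog_sum, dlog_mul,
    Finset.sum_add_distrib]

omit [Fintype V] [DecidableEq V] in
lemma ser_sum {ι : Type*} (v : V) (s : Finset ι) (F : ι → PowerSeries (GenRing V)) :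
    ser v (∑ i ∈ s, F i) = ∑ i ∈ s, ser v (F i) := by
  ext1 n
  simp only [coeff_ser, map_sum, dlog_sum]

omit [Fintype V] [DecidableEq V] in
lemma ser_C (v : V) (c : GenRing V) : ser v (PowerSeries.C c) = PowerSeries.C (dlog v c) := by
  ext1 n
  rw [coeff_ser, PowerSeries.coeff_C, PowerSeries.coeff_C]
  split_ifs <;> simp [dlog]

omit [Fintype V] [DecidableEq V] in
lemma ser_one (v : V) : ser v (1 : PowerSeries (GenRing V)) = 0 := by
  rw [← map_one PowerSeries.C, ser_C, dlog]
  simp

omit [Fintype V] [DecidableEq V] in
lemma ser_zero (v : V) : ser v (0 : PowerSeries (GenRing V)) = 0 := by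
  ext1 n; simp [coeff_ser, dlog]

omit [Fintype V] in
lemma ser_prod_eq_zero {ι : Type*} [DecidableEq ι] (v : V) (s : Finset ι)
    (F : ι → PowerSeries (GenRing V)) (h : ∀ i ∈ s, ser v (F i) = 0) :
    ser v (∏ i ∈ s, F i) = 0 := by
  induction s using Finset.induction with
  | empty => simp [ser_one]
  | insert a t ha ih =>
    rw [Finset.prod_insert ha, ser_mul, h a (Finset.mem_insert_self _ _),
      ih fun i hi => h i (Finset.mem_insert_of_mem hi)]
    simp

/-- The block of the generic matrix. -/
noncomputable def gblock (f : V → Fin r) (S : Finset V) : Matrix V V (PowerSeries (GenRing V)) :=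
  block ((genMat V).map fun a => PowerSeries.C a * PowerSeries.X) f S fun _ => 1

lemma ser_gblock (v : V) (f : V → Fin r) (S : Finset V) (a b : V) :
    ser v (gblock f S a b) =
      if a = v then gblock f S a b - (if a = b then 1 else 0) else 0 := by
  have hC : ser v (PowerSeries.C (genMat V a b) * PowerSeries.X) =
      if a = v then PowerSeries.C (genMat V a b) * PowerSeries.X else 0 := by
    have hX : ser v (PowerSeries.X : PowerSeries (GenRing V)) = 0 := by
      ext1 n
      rw [coeff_ser, PowerSeries.coeff_X]
      split_ifs <;> simp [dlog]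
    rw [ser_mul, hX, mul_zero, zero_add, ser_C]
    have hd : dlog v (genMat V a b) = if a = v then genMat V a b else 0 := by
      simp only [dlog, genMat, Matrix.of_apply, MvPolynomial.pderiv_mul, MvPolynomial.pderiv_X]
      by_cases h : a = v
      · subst h; simp
      · simp [h]
    rw [hd]
    split_ifs <;> simp
  have hsub : ∀ F G : PowerSeries (GenRing V), ser v (F - G) = ser v F - ser v G := fun F G => by
    ext1 n; simp [coeff_ser, dlog, mul_sub]
  have hneg : ∀ F : PowerSeries (GenRing V), ser v (-F) = -ser v F := fun F => by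
    rw [← zero_sub, hsub, ser_zero, zero_sub]
  simp only [gblock, block, Matrix.of_apply, Matrix.map_apply]
  split_ifs <;> simp_all [ser_one, ser_zero]

lemma ser_det (v : V) (f : V → Fin r) (S : Finset V) :
    ser v (gblock f S).det = (gblock f S).det - (gblock f (S.erase v)).det := by
  rw [Moments.det_unit_row (gblock f S) (gblock f (S.erase v)) v
    (by funext b; simp [gblock, block, Pi.single_apply, eq_comm])
    (fun a b ha hb => by simp [gblock, block, ha, hb]), Matrix.det_apply, ser_sum,
    ← Finset.sum_sub_distrib]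
  refine Finset.sum_congr rfl fun σ _ => ?_
  have hsmul : ∀ (e : ℤˣ) (F : PowerSeries (GenRing V)), ser v (e • F) = e • ser v F := fun e F => by
    rcases Int.units_eq_one_or e with rfl | rfl
    · simp
    · ext1 n
      simp [Units.smul_def, coeff_ser, dlog]
  obtain ⟨i, hi⟩ : ∃ i, σ i = v := ⟨σ.symm v, σ.apply_symm_apply v⟩
  rw [hsmul, ← Finset.mul_prod_erase univ _ (Finset.mem_univ i), ser_mul,
    ser_prod_eq_zero v _ _ (fun j hj => by
      rw [ser_gblock, if_neg]
      exact fun h => Finset.ne_of_mem_erase hj (σ.injective (h.trans hi.symm))),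
    mul_zero, zero_add, ser_gblock, if_pos hi, sub_mul, smul_sub]
  congr 1
  rcases eq_or_ne i v with rfl | hiv
  · rw [if_pos hi, if_pos hi, one_mul]
  · rw [if_neg (show σ i ≠ i from fun h => hiv (h.symm.trans hi)),
      if_neg (show σ v ≠ v from fun h => hiv (σ.injective (hi.trans h.symm))), zero_mul, smul_zero]

lemma sum_cpw {pw : V → Fin r → ℝ} (hp : IsProb pw) (v : V) : ∑ i, cpw pw v i = 1 := by
  simp only [cpw]
  rw [← map_sum, sum_cw hp, map_one]

lemma ser_revMix (v : V) (pw : V → Fin r → ℝ) (S : Finset V) :
    ser v (revMix (genMat V) (cpw pw) S) =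
      revMix (genMat V) (cpw pw) S - revMix (genMat V) (cpw pw) (S.erase v) := by
  simp only [revMix, mixDet, ser_sum, ← Finset.sum_sub_distrib]
  refine Finset.sum_congr rfl fun f _ => ?_
  rw [← map_prod, ser_mul, ser_C, show dlog v (∏ u, cpw pw u (f u)) = 0 by
    simp only [cpw, ← map_prod, dlog, MvPolynomial.pderiv_C, mul_zero], map_zero, zero_mul,
    add_zero]
  have := ser_det v f S
  simp only [gblock] at this
  rw [this, mul_sub]

/-- The polynomial of the moment of order `j` at `k`. -/
noncomputable def genMom (pw : V → Fin r → ℝ) (k : V) (j : ℕ) : GenRing V :=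
  mom (genMat V) (cpw pw) k j

/-- The second logarithmic derivative is symmetric. -/
theorem dlog_genMom_symm {pw : V → Fin r → ℝ} (hp : IsProb pw) (k v : V) (j : ℕ) :
    dlog v (genMom pw k j) = dlog k (genMom pw v j) := by
  set R := fun S => revMix (genMat V) (cpw pw) S with hR
  set I := PowerSeries.invOfUnit (R univ) 1 with hI
  have hinv : R univ * I = 1 := Moments.mul_inv_revMix _ _ (sum_cpw hp)
  have key : ∀ a b : V, ser b (R (univ.erase a) * I) =
      R (univ.erase a) * I * (R (univ.erase b) * I) - R ((univ.erase a).erase b) * I := by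
    intro a b
    have h0 : ser b (R univ * I) = 0 := by rw [hinv, ser_one]
    rw [ser_mul, hR, ser_revMix] at h0
    rw [ser_mul, hR, ser_revMix]
    simp only [hR] at hinv ⊢
    linear_combination (revMix (genMat V) (cpw pw) (univ.erase a) * I) * h0 -
      (revMix (genMat V) (cpw pw) (univ.erase a)) * (ser b I + I) * hinv
  show dlog v (PowerSeries.coeff j (R (univ.erase k) * I)) =
    dlog k (PowerSeries.coeff j (R (univ.erase v) * I))
  rw [← coeff_ser, ← coeff_ser, key, key, Finset.erase_right_comm, mul_comm (R (univ.erase k) * I)]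

/-- The values of the scales and entries. -/
def point (t : V → ℝ) (X : Matrix V V ℂ) : V ⊕ V × V → ℂ :=
  Sum.elim (fun a => (t a : ℂ)) fun q => X q.1 q.2

/-- The matrix with scaled rows. -/
def rows (t : V → ℝ) (X : Matrix V V ℂ) : Matrix V V ℂ :=
  Matrix.of fun a b => (t a : ℂ) * X a b

lemma eval_genMom {pw : V → Fin r → ℝ} (hp : IsProb pw) (t : V → ℝ) (X : Matrix V V ℂ) (k : V)
    (j : ℕ) : MvPolynomial.eval (point t X) (genMom pw k j) = mom (rows t X) (cw pw) k j := by
  rw [genMom, Moments.map_mom _ _ _ (sum_cpw hp)]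
  congr 1
  · ext a b
    simp [genMat, point, rows]
  · funext u i
    simp [cpw]

/-- Scaling the rows and the columns by `d` is scaling the rows by the squares. -/
lemma mom_scaled (X : Matrix V V ℂ) (pw : V → Fin r → ℂ) (d : V → ℝ) (k : V) (j : ℕ) :
    mom (scaled X d) pw k j = mom (rows (fun a => d a ^ 2) X) pw k j := by
  suffices h : ∀ S, revMix (scaled X d) pw S = revMix (rows (fun a => d a ^ 2) X) pw S by
    rw [mom, mom, h, h]
  intro S
  refine Finset.sum_congr rfl fun f _ => ?_
  congr 1
  set D : Matrix V V (PowerSeries ℂ) := Matrix.diagonal fun a => PowerSeries.C (d a : ℂ) with hD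
  set K := cut ((X.map fun a => PowerSeries.C a * PowerSeries.X)) f S with hK
  have e1 : block ((scaled X d).map fun a => PowerSeries.C a * PowerSeries.X) f S (fun _ => 1) =
      1 - D * K * D := by
    ext1 a b
    simp only [Matrix.sub_apply, hD, Matrix.mul_diagonal, Matrix.diagonal_mul, hK, cut, block,
      Matrix.of_apply, Matrix.map_apply, scaled, map_mul, Matrix.one_apply]
    split_ifs <;> simp <;> ring
  have e2 : block ((rows (fun a => d a ^ 2) X).map fun a => PowerSeries.C a * PowerSeries.X) f S
      (fun _ => 1) = 1 - D * (D * K) := by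
    ext1 a b
    simp only [Matrix.sub_apply, hD, Matrix.diagonal_mul, hK, cut, block,
      Matrix.of_apply, Matrix.map_apply, rows, map_mul, Matrix.one_apply, Complex.ofReal_pow,
      map_pow]
    split_ifs <;> simp <;> ring
  rw [e1, e2, Matrix.det_one_sub_mul_comm (D * K) D]

end Vale.Agent.P078.Twist.Start
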