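import Vale.Agent.P078.Twist.Start.Chain
import Vale.Agent.P078.Twist.Start.Curve

/-!
The start of the twisted potential: the twisted moment at a vertex is a sum of pair terms, local,
continuous, homogeneous in the weights, whose sums the other way are bounded by the weight.
-/

namespace Vale.Agent.P078.Twist.Start

open MKS Finset Set
open scoped Classical

variable {V : Type} [Fintype V] [DecidableEq V] {r : ℕ} {pw : V → Fin r → ℝ} {p : ℕ}
variable {X : Matrix V V ℂ} {w : V → ℝ}

/-- The share of `v` in the twisted moment of order `p` at `k`. -/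
noncomputable def pair (pw : V → Fin r → ℝ) (p : ℕ) (X : Matrix V V ℂ) (w : V → ℝ) (k v : V) : ℝ :=
  ∫ x in (0 : ℝ)..1, slope pw p X (fun u => scale p (w u) x) k v * speed p (w v) x

lemma continuous_integrand (hp : 0 < p) (hw : ∀ a, 0 < w a) (k v : V) :
    Continuous fun x : ℝ => slope pw p X (fun u => scale p (w u) x) k v * speed p (w v) x := by
  have h1 : Continuous fun x : ℝ => slope pw p X (fun u => scale p (w u) x) k v :=
    continuous_slope (Z := ℝ) (X := fun _ => X) p (fun _ _ => continuous_const)
      (t := fun x u => scale p (w u) x)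
      (fun a => continuous_scale (f := fun _ : ℝ => w a) (g := fun x => x) hp continuous_const
        continuous_id fun _ => hw a) k v
  have h2 : Continuous fun x : ℝ => speed p (w v) x :=
    continuous_speed (f := fun _ : ℝ => w v) (g := fun x => x) hp continuous_const
      continuous_id fun _ => hw v
  exact h1.mul h2

/-- The pair terms of `k` add up to the twisted moment at `k`. -/
theorem sum_pair (hpw : IsProb pw) (hp : 0 < p) (hw : ∀ a, 0 < w a) (k : V) :
    ∑ v, pair pw p X w k v =
      (mom (scaled X fun a => w a ^ (1 / (2 * p) : ℝ)) (cw pw) k p).re := by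
  unfold pair
  rw [← intervalIntegral.integral_finsetSum fun v _ =>
    (continuous_integrand hp hw k v).intervalIntegrable 0 1]
  rw [intervalIntegral.integral_eq_sub_of_hasDerivAt_of_le zero_le_one
    (f := fun x => (mom (rows (fun u => scale p (w u) x) X) (cw pw) k p).re) ?_
    (fun x hx => hasDerivAt_mom hpw p X k fun u =>
      hasDerivAt_scale hp (hw u) ⟨by linarith [hx.1], hx.2⟩)
    ((continuous_finsetSum _ fun v _ => continuous_integrand hp hw k v).intervalIntegrable 0 1)]
  · rw [mom_scaled]
    have h0 : (mom (rows (fun _ => (0 : ℝ)) X) (cw pw) k p).re = 0 := by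
      have := mom_rows_smul hpw p X k 0 (fun _ => (0 : ℝ))
      simpa [zero_pow hp.ne'] using this
    simp only [scale_zero, h0, sub_zero]
    congr 4
    funext u
    rw [scale_one hp (hw u), ← Real.rpow_two, ← Real.rpow_mul (hw u).le]
    congr 1
    field_simp
  · refine Continuous.continuousOn ?_
    simp only [← eval_genMom hpw]
    refine Complex.continuous_re.comp ((MvPolynomial.continuous_eval _).comp (continuous_pi ?_))
    rintro (a | q)
    · exact Complex.continuous_ofReal.comp
        (continuous_scale hp continuous_const continuous_id fun _ => hw a)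
    · exact continuous_const

/-- Vertices out of reach have no share. -/
theorem pair_eq_zero (hpw : IsProb pw) {k v : V} (hv : v ∉ reach X k p) :
    pair pw p X w k v = 0 := by
  simp [pair, slope_eq_zero hpw _ hv]

/-- The shares are homogeneous of degree one in the weights. -/
theorem pair_smul (hpw : IsProb pw) (hp : 0 < p) (hw : ∀ a, 0 < w a) {c : ℝ} (hc : 0 < c)
    (k v : V) : pair pw p X (fun a => c * w a) k v = c * pair pw p X w k v := by
  set l := c ^ (1 / (p : ℝ)) with hl
  have hl0 : 0 < l := Real.rpow_pos_of_pos hc _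
  have hlp : l ^ p = c := by
    rw [hl, ← Real.rpow_natCast (c ^ _) p, ← Real.rpow_mul hc.le]
    field_simp
    simp
  have hc1 : 0 < 1 / c := by positivity
  set φ := fun x => l * scale p (1 / c) x with hφ
  have hf : Continuous φ := continuous_const.mul
    (continuous_scale hp continuous_const continuous_id fun _ => hc1)
  have hcw : ∀ a, 0 < c * w a := fun a => mul_pos hc (hw a)
  have h := intervalIntegral.integral_comp_mul_deriv'' (a := 0) (b := 1) hf.continuousOn
    (f' := fun x => l * speed p (1 / c) x)
    (fun x hx => ((hasDerivAt_scale hp hc1 ⟨by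
      linarith [hx.1, min_eq_left (zero_le_one (α := ℝ))], by
      linarith [hx.2, max_eq_right (zero_le_one (α := ℝ))]⟩).const_mul l).hasDerivWithinAt)
    (continuous_const.mul
      (continuous_speed hp continuous_const continuous_id fun _ => hc1)).continuousOn
    (continuous_integrand (pw := pw) (X := X) hp hcw k v).continuousOn
  have h0 : φ 0 = 0 := by simp [hφ, scale_zero]
  have h1 : φ 1 = 1 := by
    rw [hφ]
    simp only [scale_one hp hc1, hl, ← Real.mul_rpow hc.le hc1.le]
    rw [mul_one_div, div_self hc.ne', Real.one_rpow]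
  rw [h0, h1] at h
  rw [pair, ← h, pair, ← intervalIntegral.integral_const_mul]
  refine intervalIntegral.integral_congr fun x hx => ?_
  rw [Set.uIcc_of_le zero_le_one] at hx
  simp only [Function.comp_apply, hφ]
  rw [show (fun u => scale p (c * w u) (l * scale p (1 / c) x)) =
    fun u => l * scale p (w u) x from funext fun u => (scale_comp hp (hw u) hc hx).1]
  rw [mul_assoc, (scale_comp hp (hw v) hc hx).2, ← hl, ← mul_assoc,
    mul_comm (slope pw p X (fun u => l * scale p (w u) x) k v), slope_smul hpw p X _ k v l, hlp,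
    mul_assoc]

/-- The sum of the shares in `v` is at most `π / 2` times the bound times the weight. -/
theorem sum_pair_le (hpw : IsProb pw) (hp : 0 < p) (hw : ∀ a, 0 < w a) {B : ℝ} (hB : 0 ≤ B)
    (hmom : ∀ d : V → ℝ, (∀ a, 0 ≤ d a ∧ d a ≤ 1) →
      ∀ k, (mom (scaled X d) (cw pw) k p).re ≤ B) (v : V) :
    ∑ k, pair pw p X w k v ≤ Real.pi / 2 * B * w v := by
  unfold pair
  rw [← intervalIntegral.integral_finsetSum fun k _ =>
    (continuous_integrand hp hw k v).intervalIntegrable 0 1]
  set g := fun x => ∑ k, slope pw p X (fun u => scale p (w u) x) k v * speed p (w v) x with hg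
  have hgc : Continuous g := continuous_finsetSum _ fun k _ => continuous_integrand hp hw k v
  set F := fun c => ∫ x in (0 : ℝ)..c, g x with hF
  set P := fun x : ℝ => B * w v * Real.arctan (x ^ p / Real.sqrt (1 - (x ^ p) ^ 2) / w v) with hP
  suffices h : ∀ c ∈ Ioo (0 : ℝ) 1, F c ≤ Real.pi / 2 * B * w v by
    have hFc : Continuous F := intervalIntegral.continuous_primitive
      (fun a b => hgc.intervalIntegrable a b) 0
    exact le_of_tendsto ((hFc.tendsto 1).mono_left nhdsWithin_le_nhds)
      (Filter.mem_of_superset (Ioo_mem_nhdsLT (zero_lt_one (α := ℝ))) h)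
  intro c hc
  have hlt : ∀ x ∈ Icc (0 : ℝ) c, 0 < 1 - (x ^ p) ^ 2 := fun x hx => by
    have : x ^ p < 1 := pow_lt_one₀ hx.1 (lt_of_le_of_lt hx.2 hc.2) hp.ne'
    nlinarith [pow_nonneg hx.1 p]
  have hcont : ContinuousOn (fun x => P x - F x) (Icc 0 c) := by
    refine ContinuousOn.sub ?_ (intervalIntegral.continuous_primitive
      (fun a b => hgc.intervalIntegrable a b) 0).continuousOn
    refine continuousOn_const.mul (Real.continuous_arctan.comp_continuousOn ?_)
    refine (ContinuousOn.div (by fun_prop) (by fun_prop) fun x hx => ?_).div_const _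
    exact (Real.sqrt_pos.2 (hlt x hx)).ne'
  have hder : ∀ x ∈ Ioo 0 c, HasDerivAt (fun x => P x - F x)
      (B * (p * x ^ (p - 1) / (Real.sqrt (1 - (x ^ p) ^ 2) * den p (w v) x)) - g x) x := by
    intro x hx
    have hs := hlt x (Ioo_subset_Icc_self hx)
    have hsq : Real.sqrt (1 - (x ^ p) ^ 2) ^ 2 = 1 - (x ^ p) ^ 2 := Real.sq_sqrt hs.le
    have hs0 : Real.sqrt (1 - (x ^ p) ^ 2) ≠ 0 := (Real.sqrt_pos.2 hs).ne'
    have h1 := (((hasDerivAt_pow p x).div
      ((((hasDerivAt_pow p x).pow 2).const_sub 1).sqrt hs.ne') hs0).div_const (w v)).arctan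
    refine ((h1.const_mul (B * w v)).congr_deriv ?_).sub
      (intervalIntegral.integral_hasDerivAt_right (hgc.intervalIntegrable _ _)
        (hgc.stronglyMeasurableAtFilter _ _) hgc.continuousAt)
    have hden := den_pos hp (hw v) x
    rw [den_eq (abs_le.2 ⟨by linarith [hx.1], by linarith [hx.2, hc.2]⟩)] at hden ⊢
    rw [show x ^ (2 * p) = (x ^ p) ^ 2 by rw [mul_comm, pow_mul]] at hden ⊢
    have hq : (0 : ℝ) < w v ^ 2 * (1 - (x ^ p) ^ 2) + (x ^ p) ^ 2 := by
      have := mul_pos (pow_pos (hw v) 2) hs
      positivity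
    have hq' : (1 + (x ^ p / Real.sqrt (1 - (x ^ p) ^ 2) / w v) ^ 2) =
        (1 - (x ^ p) ^ 2 + (x ^ p) ^ 2 / w v ^ 2) / (1 - (x ^ p) ^ 2) := by
      rw [div_pow, div_pow, hsq]
      field_simp
    simp only [Pi.div_apply, Pi.pow_apply]
    rw [hq', show (((2 : ℕ) : ℝ) * (x ^ p) ^ (2 - 1) * ((p : ℝ) * x ^ (p - 1))) =
      2 * x ^ p * ((p : ℝ) * x ^ (p - 1)) by norm_num]
    field_simp
    rw [hsq]
    field_simp [(hw v).ne']
    ring
  have hmono : MonotoneOn (fun x => P x - F x) (Icc 0 c) := by
    refine monotoneOn_of_deriv_nonneg (convex_Icc 0 c) hcont (fun x hx => ?_) fun x hx => ?_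
    all_goals rw [interior_Icc] at hx
    · exact (hder x hx).differentiableAt.differentiableWithinAt
    rw [(hder x hx).deriv, sub_nonneg]
    have hs := hlt x (Ioo_subset_Icc_self hx)
    set t := fun u => scale p (w u) x with ht
    have hden := den_pos hp (hw v) x
    have hgx : g x = p * (mom (rows t X) (cw pw) v p).re / (x * den p (w v) x) := by
      rw [eq_div_iff (mul_pos hx.1 hden).ne', hg, Finset.sum_mul, ← sum_slope hpw p X t v]
      refine Finset.sum_congr rfl fun k _ => ?_
      rw [mul_comm (slope pw p X t v k), ← slope_symm hpw p X t k v, ht]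
      simp only
      rw [scale_eq_mul hp (hw v)]
      ring
    set μ := x * (1 - x ^ (2 * p)) ^ (-(1 / (2 * p) : ℝ)) with hμ
    have hsx : 0 < 1 - x ^ (2 * p) := by rwa [mul_comm, pow_mul]
    have hμ0 : 0 < μ := mul_pos hx.1 (Real.rpow_pos_of_pos hsx _)
    have hμp : μ ^ p = x ^ p / Real.sqrt (1 - (x ^ p) ^ 2) := by
      rw [hμ, mul_pow, show (1 - (x ^ p) ^ 2) = 1 - x ^ (2 * p) by rw [mul_comm, pow_mul],
        div_eq_mul_inv (x ^ p) (Real.sqrt _), Real.sqrt_eq_rpow,
        ← Real.rpow_neg hsx.le, ← Real.rpow_natCast ((1 - x ^ (2 * p)) ^ _) p,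
        ← Real.rpow_mul hsx.le]
      congr 2
      field_simp
    have hle : ∀ u, t u ≤ μ := fun u => by
      refine mul_le_mul_of_nonneg_left (Real.rpow_le_rpow_of_nonpos hsx ?_
        (neg_nonpos.2 (by positivity))) hx.1.le
      rw [den_eq (abs_le.2 ⟨by linarith [hx.1], by linarith [hx.2, hc.2]⟩), le_add_iff_nonneg_right]
      have := hx.1
      positivity
    have hm : (mom (rows t X) (cw pw) v p).re ≤ μ ^ p * B := by
      have hn : ∀ u, 0 ≤ t u / μ := fun u => div_nonneg (scale_nonneg hp (hw u) hx.1.le) hμ0.le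
      have h2 := hmom (fun u => Real.sqrt (t u / μ))
        (fun u => ⟨Real.sqrt_nonneg _, Real.sqrt_le_one.2 ((div_le_one hμ0).2 (hle u))⟩) v
      rw [mom_scaled] at h2
      simp only [Real.sq_sqrt (hn _)] at h2
      have h3 := mom_rows_smul hpw p X v μ (fun u => t u / μ)
      simp only [mul_div_cancel₀ _ hμ0.ne'] at h3
      rw [h3]
      exact mul_le_mul_of_nonneg_left h2 (by positivity)
    rw [hgx]
    calc p * (mom (rows t X) (cw pw) v p).re / (x * den p (w v) x)
        ≤ p * (μ ^ p * B) / (x * den p (w v) x) := by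
          refine div_le_div_of_nonneg_right ?_ (mul_pos hx.1 hden).le
          exact mul_le_mul_of_nonneg_left hm (Nat.cast_nonneg p)
      _ = _ := by
          rw [hμp, show x ^ p = x ^ (p - 1) * x by rw [← pow_succ, Nat.sub_add_cancel hp]]
          have := hx.1.ne'
          field_simp
  have h := hmono (left_mem_Icc.2 hc.1.le) (right_mem_Icc.2 hc.1.le) hc.1.le
  have h0 : P 0 - F 0 = 0 := by simp [hP, hF, zero_pow hp.ne']
  have hat := (Real.arctan_lt_pi_div_two (c ^ p / Real.sqrt (1 - (c ^ p) ^ 2) / w v)).le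
  have : P c ≤ B * w v * (Real.pi / 2) :=
    mul_le_mul_of_nonneg_left hat (mul_nonneg hB (hw v).le)
  simp only [h0] at h
  linarith

/-- The shares are continuous in the entries and the weights. -/
theorem continuous_pair {Z : Type*} [TopologicalSpace Z] (hp : 0 < p) {X : Z → Matrix V V ℂ}
    (hX : ∀ a b, Continuous fun z => X z a b) {w : Z → V → ℝ}
    (hw : ∀ a, Continuous fun z => w z a) (hw0 : ∀ z a, 0 < w z a) (k v : V) :
    Continuous fun z => pair pw p (X z) (w z) k v := by
  refine intervalIntegral.continuous_parametric_intervalIntegral_of_continuous' ?_ 0 1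
  exact (continuous_slope p (fun a b => (hX a b).comp continuous_fst)
    (fun a => continuous_scale hp ((hw a).comp continuous_fst) continuous_snd
      fun q => hw0 q.1 a) k v).mul
    (continuous_speed hp ((hw v).comp continuous_fst) continuous_snd fun q => hw0 q.1 v)

end Vale.Agent.P078.Twist.Start
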