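import Vale.Agent.P078.Twist.Start.Shares
import Vale.Agent.P078.Twist.Int

/-!
The start: the potential of the uniform colouring integrates to at most `π / 2 · (2 / √r) ^ p`.
-/

namespace Vale.Agent.P078.Twist.Start

open MKS MKS.Op Singular
open scoped Classical

variable {H : Type} [NormedAddCommGroup H] [InnerProductSpace ℂ H] [CompleteSpace H]
  {M A : VonNeumannAlgebra H} {e : H →L[ℂ] H} {φ : (H →L[ℂ] H) →ₗ[ℂ] ℂ}

lemma sint_sum (hM : IsMASA M A) (he : IsPr A e) (hφ : State.IsState M A e φ) {ι : Type*}
    (s : Finset ι) {f : ι → Pt A → ℂ} (hf : ∀ i ∈ s, f i ∈ Rep A e) :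
    int φ e (∑ i ∈ s, f i) = ∑ i ∈ s, int φ e (f i) := by
  induction s using Finset.induction with
  | empty =>
    rw [Finset.sum_empty, Finset.sum_empty]
    show int φ e (fun _ : Pt A => (0 : ℂ)) = 0
    simpa using sint_const hM he hφ 0
  | insert a t ha ih =>
    rw [Finset.sum_insert ha, Finset.sum_insert ha,
      sint_add hM he hφ (hf a (Finset.mem_insert_self _ _))
        (sum_mem fun i hi => hf i (Finset.mem_insert_of_mem hi)),
      ih fun i hi => hf i (Finset.mem_insert_of_mem hi)]

/-- The start from the statements on the weights. -/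
theorem start_ok (hW : WeightStatement) (hTr : TransportStatement) (hWR : WeightRepStatement) :
    StartStatement := by
  intro H _ _ _ M A e φ hM he hφ D hD hsa hl hu n E hE hE0 p r hr hp hpe
  have hr0 : 0 < r := by omega
  have hp0 : 0 < p := by omega
  obtain ⟨hW1, hW2, -, hW4⟩ := hW H M A e φ hM he hφ D hD
  obtain ⟨N, K, hK, hKs⟩ := exists_sep_cells hM he D p
  set C : ℝ := Real.pi / 2 * (2 / Real.sqrt r) ^ p with hC
  have hrep : ∀ i, (fun η => (share φ D p r (K i) η : ℂ)) ∈ Rep A e :=
    fun i => rep_share hM he D hφ hD hW hWR (hK.1 i) hp0 hr0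
  have hcell : ∀ i, int φ e (fun η => (share φ D p r (K i) η : ℂ)) ≤ C * (φ (K i)).re := by
    intro i
    obtain ⟨g, hg, hint, hval⟩ := hTr H M A e φ hM he hφ D hD p (K i) (hK.1 i) (hKs i) _ (hrep i)
      fun η _ hno => by
        have h0 : share φ D p r (K i) η = 0 := by
          unfold share
          split_ifs
          · exact Finset.sum_eq_zero fun v _ => if_neg (hno v ((mem_ball D).1 v.2))
          · rfl
        show ((share φ D p r (K i) η : ℝ) : ℂ) = 0
        rw [h0, Complex.ofReal_zero]
    rw [hint]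
    have hb : (φ (g * e)).re ≤ (φ (((C : ℂ) • K i) * e)).re := by
      refine state_re_le hM he hφ hg (csmul_mem _ (hK.1 i).1) fun c hce => ?_
      rw [ev_smul c _ (hK.1 i).1, hval c]
      rcases ev_proj c (hK.1 i) with h0 | h1
      · rw [if_neg (by rw [h0]; exact zero_ne_one), h0, mul_zero]
      rw [if_pos h1, h1, mul_one, Complex.ofReal_re, Complex.re_sum]
      simp only [← Complex.ofReal_mul, Complex.ofReal_re]
      set U := D.ball c (2 * p)
      have hR := frame_ball hM he D c (2 * p)
      have hin : ∀ η, D.Reaches p c η → η ∈ U := fun η hη =>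
        (mem_ball D).2 (reaches_mono hM he D (by omega) hη)
      have hcU : c ∈ U := hin c (reaches_self hM he D hce p)
      have hterm : ∀ η : U, D.Reaches p c η →
          wgt M A e φ c η * share φ D p r (K i) η =
            pair (uwt U r) p (wmat D.a D.g c (rep M c) U) (fun u => wgt M A e φ c u) η
              ⟨c, hcU⟩ := by
        intro η hη
        have hηe := (reaches_ev hM he D hη).2
        have hηmem : (η : Pt A) ∈ D.ball η p := (mem_ball D).2 (reaches_self hM he D hηe p)
        have hcη : c ∈ D.ball η p := (mem_ball D).2 (reaches_symm hM he D hη)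
        have hsub : D.ball (η : Pt A) p ⊆ U := fun ζ hζ =>
          (mem_ball D).2 (by rw [two_mul]; exact reaches_trans hM he D hη ((mem_ball D).1 hζ))
        have hw : ∀ u : D.ball (η : Pt A) p, 0 < wgt M A e φ η u :=
          fun u => hW1 p η u ((mem_ball D).1 u.2)
        rw [share, dif_pos hηmem, Finset.sum_eq_single (⟨c, hcη⟩ : D.ball (η : Pt A) p)
          (fun v _ hv => if_neg fun hv1 => hv (Subtype.ext (sep_apply hM he D (hKs i) h1 hv1 hη
            ((mem_ball D).1 v.2)))) (by simp), if_pos h1,
          ← pair_smul (isProb_uwt _ hr0) hp0 hw (hW1 p c η hη)]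
        have hcoc : (fun u : D.ball (η : Pt A) p => wgt M A e φ c η * wgt M A e φ η u) =
            fun u : D.ball (η : Pt A) p => wgt M A e φ c u :=
          funext fun u : D.ball (η : Pt A) p => (hW2 p p c η u hη ((mem_ball D).1 u.2)).symm
        rw [hcoc]
        exact (pair_window hM he D hr0 hR (frame_ball hM he D (η : Pt A) p) hsub (hR η η.2).1
          (hR η η.2).2.1 (fun ζ => wgt M A e φ c ζ) ⟨η, hηmem⟩ ⟨c, hcη⟩
          fun ζ hζ => (mem_ball D).2 hζ).symm
      have hsum : ∑ η ∈ D.ball c p, wgt M A e φ c η * share φ D p r (K i) η =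
          ∑ η : U, pair (uwt U r) p (wmat D.a D.g c (rep M c) U) (fun u => wgt M A e φ c u) η
            ⟨c, hcU⟩ := by
        rw [show D.ball c p = U.filter fun η => D.Reaches p c η from Finset.ext fun η => by
          rw [Finset.mem_filter, mem_ball D (n := p)]
          exact ⟨fun h => ⟨hin η h, h⟩, fun h => h.2⟩, Finset.sum_filter,
          ← Finset.sum_coe_sort U]
        refine Finset.sum_congr rfl fun η _ => ?_
        split_ifs with hη
        · exact hterm η hη
        · rw [pair_eq_zero (isProb_uwt _ hr0)]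
          exact fun hv => hη (reaches_symm hM he D
            (reach_le_reaches hM he D hR η p ⟨c, hcU⟩ hv))
      rw [hsum]
      have hle := sum_pair_le (X := wmat D.a D.g c (rep M c) U)
        (w := fun u : U => wgt M A e φ c u) (isProb_uwt U hr0) hp0
        (fun u => hW1 (2 * p) c u ((mem_ball D).1 u.2))
        (B := (2 / Real.sqrt r) ^ p) (by positivity)
        (fun d hd k => mom_window_le hM he hR hsa hl hu hE hE0 hr hpe d hd k) ⟨c, hcU⟩
      simpa [hC, hW4 c hce] using hle
    have hKe : K i * e = K i := by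
      rw [← hK.2.2, Finset.mul_sum, Finset.sum_eq_single i (fun j _ hj => hK.2.1 i j (Ne.symm hj))
        (by simp), (hK.1 i).2.isIdempotentElem.eq]
    rw [smul_mul_assoc, hKe, map_smul, smul_eq_mul, Complex.re_ofReal_mul] at hb
    exact hb
  have heq : int φ e (fun χ => (tpot φ (rt p) D p (unifSt A r) χ : ℂ)) =
      int φ e (∑ i, fun η => (share φ D p r (K i) η : ℂ)) := by
    obtain ⟨a, ha, ha'⟩ := sum_mem (S := Rep A e) fun i (_ : i ∈ Finset.univ) => hrep i
    rw [sint_eq hM he hφ ha ha', sint_eq hM he hφ ha fun χ hχ => by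
      rw [← ha' χ hχ, Finset.sum_apply, ← sum_share hM he D hφ hD hW hK hp0 hr0 hχ,
        Complex.ofReal_sum]]
  rw [heq, sint_sum hM he hφ _ fun i _ => hrep i]
  refine (Finset.sum_le_sum fun i _ => hcell i).trans_eq ?_
  rw [← Finset.mul_sum, ← Complex.re_sum, ← map_sum, hK.2.2]

end Vale.Agent.P078.Twist.Start
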