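import Vale.Agent.P078.Twist.Start.Window
import Vale.Agent.P078.Twist.RepCont
import Vale.Agent.P078.MKS.Pass

/-!
The shares of the points of a cell in the twisted potential of the uniform state.
-/

namespace Vale.Agent.P078.Twist.Start

open MKS MKS.Op Singular
open scoped Classical

/-- The weights along each word are read off in the algebra. -/
def WeightRepStatement : Prop :=
  ∀ (H : Type) [NormedAddCommGroup H] [InnerProductSpace ℂ H] [CompleteSpace H]
    (M A : VonNeumannAlgebra H) (e : H →L[ℂ] H) (φ : (H →L[ℂ] H) →ₗ[ℂ] ℂ),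
    IsMASA M A → IsPr A e → State.IsState M A e φ → ∀ D : MKS.Op.Gen M A e, DensGen φ D →
    ∀ n a, ∃ ρ ∈ A, ∀ χ η : Pt A, Moves (words D n a) χ η →
      (wgt M A e φ χ η : ℂ) = ev χ ρ

variable {H : Type} [NormedAddCommGroup H] [InnerProductSpace ℂ H] [CompleteSpace H]
  {M A : VonNeumannAlgebra H} {e : H →L[ℂ] H} {φ : (H →L[ℂ] H) →ₗ[ℂ] ℂ}

/-- The uniform weights. -/
noncomputable def uwt (V : Type) (r : ℕ) : V → Fin r → ℝ := fun _ _ => (1 / r : ℝ)

lemma isProb_uwt (V : Type) [Fintype V] [DecidableEq V] {r : ℕ} (hr : 0 < r) :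
    IsProb (uwt V r) := fun _ =>
  ⟨fun _ => by simp only [uwt]; positivity, by simp [uwt, hr.ne']⟩

/-- The share in the potential at `η` of the points of `K`. -/
noncomputable def share (φ : (H →L[ℂ] H) →ₗ[ℂ] ℂ) (D : MKS.Op.Gen M A e) (p r : ℕ)
    (K : H →L[ℂ] H) (η : Pt A) : ℝ :=
  if h : η ∈ D.ball η p then
    ∑ v : D.ball η p, if ev (v : Pt A) K = 1 then
      pair (uwt (D.ball η p) r) p (wmat D.a D.g η (rep M η) (D.ball η p))
        (fun u => wgt M A e φ η u) ⟨η, h⟩ v else 0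
  else 0

variable (hM : IsMASA M A) (he : IsPr A e) (D : MKS.Op.Gen M A e)
include hM he

/-- The shares do not depend on the window or the frame. -/
lemma pair_window {r p : ℕ} (hr : 0 < r) {χ χ' : Pt A} {U U' : Finset (Pt A)}
    {R R' : Pt A → (H →L[ℂ] H)} (hR : IsFrame M e χ U R) (hR' : IsFrame M e χ' U' R')
    (hsub : U' ⊆ U) {h : H →L[ℂ] H} (hh : h ∈ normaliser M A) (hm : Moves h χ χ') (w : Pt A → ℝ)
    (k v : U') (hball : ∀ ζ, D.Reaches p k ζ → ζ ∈ U') :
    pair (uwt U r) p (wmat D.a D.g χ R U) (fun u => w u) ⟨k, hsub k.2⟩ ⟨v, hsub v.2⟩ =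
      pair (uwt U' r) p (wmat D.a D.g χ' R' U') (fun u => w u) k v := by
  obtain ⟨lam, hlam, hcoef⟩ := coef_gauge hM (a := D.a) D.g_mem hR hR' hsub hh hm
  exact pair_congr (isProb_uwt U hr) (fun u : U' => (⟨u, hsub u.2⟩ : U))
    (fun a b hab => Subtype.ext (Subtype.ext_iff.1 hab : _)) (fun u => lam u)
    (fun a => hlam a a.2) (fun a b => hcoef a a.2 b b.2) (fun u => w u) k v fun u hu =>
      ⟨⟨u, hball u (reach_le_reaches hM he D hR _ p u hu)⟩, rfl⟩

/-- The shares of the cells of a partition add up to the potential. -/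
lemma sum_share (hφ : State.IsState M A e φ) (hD : DensGen φ D) (hW : WeightStatement) {N : ℕ}
    {E : Fin N → (H →L[ℂ] H)} (hE : IsPartition A e E) {p r : ℕ} (hp : 0 < p) (hr : 0 < r)
    {η : Pt A} (hη : ev η e = 1) :
    ∑ i, share φ D p r (E i) η = tpot φ (rt p) D p (unifSt A r) η := by
  have hmem : η ∈ D.ball η p := (mem_ball D).2 (reaches_self hM he D hη p)
  have hev : ∀ v : D.ball η p, ev (v : Pt A) e = 1 :=
    fun v => (reaches_ev hM he D ((mem_ball D).1 v.2)).2
  simp only [share, dif_pos hmem]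
  rw [Finset.sum_comm, tpot, dif_pos hmem, tmom]
  have hone : ∀ v : D.ball η p, ∀ c : ℝ,
      (∑ i, if ev (v : Pt A) (E i) = 1 then c else 0) = c := by
    intro v c
    obtain ⟨j, hj⟩ := ev_partition (v : Pt A) hE (hev v)
    rw [Finset.sum_eq_single j (fun i _ hij => if_neg ?_) (by simp), if_pos hj]
    intro hi
    have := congrArg (ev (v : Pt A)) (hE.2.1 i j hij)
    rw [ev_mul _ (hE.1 i).1 (hE.1 j).1, hi, hj, ev_zero, one_mul] at this
    exact one_ne_zero this
  simp only [hone]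
  rw [sum_pair (isProb_uwt _ hr) hp
    (fun u : D.ball η p => (hW H M A e φ hM he hφ D hD).1 p η u ((mem_ball D).1 u.2))]
  congr 2
  ext a b
  simp [tmat, rt, scaled, wsc, wmat, unifSt]

/-- The share of a cell is represented. -/
lemma rep_share (hφ : State.IsState M A e φ) (hD : DensGen φ D) (hW : WeightStatement)
    (hWR : WeightRepStatement) {K : H →L[ℂ] H} (hKp : IsPr A K) {p r : ℕ} (hp : 0 < p) (hr : 0 < r) :
    (fun η => (share φ D p r K η : ℂ)) ∈ Rep A e := by
  have hK : K ∈ A := hKp.1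
  let T := Fin (Fintype.card (Fin p → Fin D.N) + 1)
  let W : T → (H →L[ℂ] H) := words D p
  have hn : ∀ a, W a ∈ normaliser M A := words_nor hM he D p
  choose ρ hρ hρ' using hWR H M A e φ hM he hφ D hD p
  obtain ⟨hW1, -, hW3, -⟩ := hW H M A e φ hM he hφ D hD
  obtain ⟨B, hB1, hB⟩ := hW3 p
  have hB0 : 0 < B⁻¹ := inv_pos.2 (lt_of_lt_of_le one_pos hB1)
  let cf : T → T → (Pt A → ℂ) := fun a b => sel D p a * sel D p b *
    ∑ i, (fun χ : Pt A => ev χ (star (W a) * D.a i * W a)) *
      fun χ : Pt A => val χ (star (W a) * D.g i * W b)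
  let f : (T × T) ⊕ T ⊕ T → (Pt A → ℂ) := Sum.elim (fun q => cf q.1 q.2)
    (Sum.elim (fun a χ => ev χ (ρ a)) fun b χ => ev χ (star (W b) * K * W b))
  have hf : ∀ i, f i ∈ Rep A e := by
    rintro (q | a | b)
    · exact mul_mem (mul_mem (sel_mem hM he D p q.1) (sel_mem hM he D p q.2))
        (sum_mem fun i _ => mul_mem (rep_conj_ev (hn q.1) (D.a_mem i))
          (rep_val hM (nor_mul_mem hM (nor_mul_mem hM (nor_star (hn q.1)) (D.g_mem i)) (hn q.2))))
    · exact rep_ev (hρ a)
    · exact rep_conj_ev (hn b) hK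
  let F : ((T × T) ⊕ T ⊕ T → ℂ) → ℝ := fun z => ∑ b : T, (z (.inr (.inr b))).re *
    pair (uwt T r) p (Matrix.of fun a b => z (.inl (a, b)))
      (fun a => max (z (.inr (.inl a))).re B⁻¹) 0 b
  have hF : Continuous F := continuous_finsetSum _ fun b _ =>
    (Complex.continuous_re.comp (continuous_apply (Sum.inr (Sum.inr b)))).mul
      (continuous_pair (X := fun z : ((T × T) ⊕ T ⊕ T → ℂ) => Matrix.of fun a b => z (.inl (a, b)))
        (w := fun z a => max (z (.inr (.inl a))).re B⁻¹) hp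
        (fun a b => continuous_apply (Sum.inl (a, b)))
        (fun a => (Complex.continuous_re.comp (continuous_apply (Sum.inr (Sum.inl a)))).max
          continuous_const)
        (fun z a => lt_max_of_lt_right hB0) 0 b)
  obtain ⟨c, hc, hc'⟩ := rep_continuous_real hM hf hF
  refine ⟨c, hc, fun χ hχ => ?_⟩
  rw [← hc' χ hχ]
  let U := D.ball χ p
  choose pick hpick hmin using fun η : U => exists_pick D p ((mem_ball D).1 η.2)
  let R : Pt A → (H →L[ℂ] H) := fun η => if h : η ∈ U then W (pick ⟨η, h⟩) else 0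
  have hRu : ∀ u : U, R u = W (pick u) := fun u => dif_pos u.2
  have hR : IsFrame M e χ U R := fun η hη => by
    rw [hRu ⟨η, hη⟩]
    exact ⟨hn _, hpick ⟨η, hη⟩, (reaches_ev hM he D ((mem_ball D).1 hη)).2⟩
  have hmem : χ ∈ U := (mem_ball D).2 (reaches_self hM he D hχ p)
  have hinj : Function.Injective pick := fun u v huv =>
    Subtype.ext (moves_unique (hpick u) (huv ▸ hpick v))
  have hpick0 : pick ⟨χ, hmem⟩ = 0 := by
    refine le_antisymm (not_lt.1 fun hlt => ?_) (Fin.zero_le _)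
    exact hmin ⟨χ, hmem⟩ 0 hlt (words_zero hM he D p hχ)
  have hsel : ∀ u : U, sel D p (pick u) χ = 1 := fun u => by
    rw [sel_eq hM he D p (pick u) χ, if_pos ⟨u, hpick u, hmin u⟩]
  have hrange : ∀ a : T, sel D p a χ ≠ 0 → a ∈ Set.range pick := fun a ha => by
    rw [sel_eq hM he D p a χ] at ha
    split_ifs at ha with h
    · obtain ⟨η, hη, hη'⟩ := h
      refine ⟨⟨η, (mem_ball D).2 (words_reach hM he D p a hη)⟩, ?_⟩
      rcases lt_trichotomy (pick ⟨η, (mem_ball D).2 (words_reach hM he D p a hη)⟩) a with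
        hlt | heq | hgt
      · exact absurd (hpick _) (hη' _ hlt)
      · exact heq
      · exact absurd hη (hmin _ a hgt)
    · exact absurd rfl ha
  set Xv : Matrix T T ℂ := Matrix.of fun a b => cf a b χ with hXv
  set wv : T → ℝ := fun a => max (ev χ (ρ a)).re B⁻¹ with hwv
  have hreach : ∀ i, reach Xv 0 i ⊆ Set.range pick := by
    intro i
    induction i with
    | zero => rintro v rfl; exact ⟨_, hpick0⟩
    | succ i ih =>
      rintro v (hv | ⟨a, -, hav⟩)
      · exact ih hv
      have hentry : ∀ a b, Xv a b ≠ 0 → sel D p a χ ≠ 0 ∧ sel D p b χ ≠ 0 := fun a b h => by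
        constructor <;> intro h0 <;> exact h (by simp [hXv, cf, h0])
      rcases hav with h | h
      exacts [hrange v (hentry _ _ h).2, hrange v (hentry _ _ h).1]
  have hsub : ∀ u v : U, wmat D.a D.g χ R U u v = Xv (pick u) (pick v) := fun u v => by
    have ha : ∀ i, ev χ (star (W (pick u)) * D.a i * W (pick u)) = ev (u : Pt A) (D.a i) :=
      fun i => ((hpick u).2 _ (D.a_mem i)).symm
    simp [hXv, cf, wmat, coef, hsel, ha, hRu, Finset.sum_apply]
  have hK' : ∀ u : U, (ev χ (star (W (pick u)) * K * W (pick u))).re = (ev (u : Pt A) K).re :=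
    fun u => by rw [← (hpick u).2 K hK]
  have hwval : ∀ u : U, wv (pick u) = wgt M A e φ χ u := fun u => by
    show max (ev χ (ρ (pick u))).re B⁻¹ = _
    rw [← hρ' _ χ u (hpick u), Complex.ofReal_re]
    exact max_eq_left (hB χ u ((mem_ball D).1 u.2)).2
  have hterm : ∀ u : U, pair (uwt T r) p Xv wv 0 (pick u) =
      pair (uwt U r) p (wmat D.a D.g χ (rep M χ) U) (fun u => wgt M A e φ χ u) ⟨χ, hmem⟩ u := by
    intro u
    conv_lhs => rw [← hpick0]
    rw [pair_congr (isProb_uwt T hr) pick hinj (fun _ => (1 : ℂ)) (fun _ => by simp)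
      (Y := wmat D.a D.g χ R U) (fun a b => by rw [hsub]; simp) wv ⟨χ, hmem⟩ u
      (by rw [hpick0]; exact hreach p)]
    rw [show wv ∘ pick = fun u : U => wgt M A e φ χ u from funext hwval,
      show uwt T r ∘ pick = uwt U r from rfl]
    exact (pair_window hM he D hr (hR) (frame_ball hM he D χ p) subset_rfl
      (proj_mem_nor hM he) (moves_proj hM he hχ) (fun ζ => wgt M A e φ χ ζ) ⟨χ, hmem⟩ u
      fun ζ hζ => (mem_ball D).2 hζ)
  show (share φ D p r K χ : ℂ) = ((F fun i => f i χ : ℝ) : ℂ)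
  congr 1
  show share φ D p r K χ = ∑ b : T, (ev χ (star (W b) * K * W b)).re * pair (uwt T r) p Xv wv 0 b
  rw [share, dif_pos hmem,
    ← Finset.sum_subset (Finset.subset_univ (Finset.univ.image pick)) (fun b _ hb => by
      rw [pair_eq_zero (isProb_uwt T hr), mul_zero]
      intro hb'
      obtain ⟨u, hu⟩ := hreach p hb'
      exact hb (Finset.mem_image.2 ⟨u, Finset.mem_univ u, hu⟩)),
    Finset.sum_image fun a _ b _ h => hinj h]
  refine Finset.sum_congr rfl fun u _ => ?_
  rw [hterm, hK']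
  by_cases h1 : ev (u : Pt A) K = 1
  · rw [if_pos h1, h1, Complex.one_re, one_mul]
  · rw [if_neg h1, (ev_proj _ hKp).resolve_right h1, Complex.zero_re, zero_mul]

end Vale.Agent.P078.Twist.Start
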