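import Vale.Agent.P078.Twist.Start.Main
import Vale.Agent.P078.Twist.Defs
import Vale.Agent.P078.MKS.Assembly.MainSq
import Vale.Agent.P078.MKS.Edge

/-!
The shares in windows: independence of the window and the frame, and the bound of the moments of
a uniformly coloured window.
-/

namespace Vale.Agent.P078.Twist.Start

open MKS MKS.Op Singular
open scoped Classical

variable {V : Type} [Fintype V] [DecidableEq V] {r : ℕ} {pw : V → Fin r → ℝ} {p : ℕ}

/-- The shares depend on the part of the matrix within reach only, up to gauge. -/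
lemma pair_congr (hpw : IsProb pw) {W : Type} [Fintype W] [DecidableEq W] (ι : W → V)
    (hι : Function.Injective ι) {X : Matrix V V ℂ} {Y : Matrix W W ℂ} (lam : W → ℂ)
    (hlam : ∀ a, star (lam a) * lam a = 1)
    (hY : ∀ a b, Y a b = star (lam a) * X (ι a) (ι b) * lam b) (w : V → ℝ) (k v : W)
    (hreach : reach X (ι k) p ⊆ Set.range ι) :
    pair pw p X w (ι k) (ι v) = pair (pw ∘ ι) p Y (w ∘ ι) k v := by
  have hpw' : IsProb (pw ∘ ι) := fun a => hpw (ι a)
  have hmom : ∀ t : V → ℝ, (mom (rows t X) (cw pw) (ι k) p).re =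
      (mom (rows (t ∘ ι) Y) (cw (pw ∘ ι)) k p).re := by
    intro t
    have hr : reach (rows t X) (ι k) p ⊆ Set.range ι :=
      (Moments.reach_of_le _ X _ (fun a b hab h0 => hab (by simp [rows, h0])) _).trans hreach
    have e : rows (t ∘ ι) Y =
        Matrix.of fun a b => star (lam a) * (rows t X).submatrix ι ι a b * lam b := by
      ext a b
      simp only [rows, Matrix.of_apply, hY, Function.comp_apply, Matrix.submatrix_apply]
      ring
    rw [Moments.mom_local (cw pw) (sum_cw hpw) ι hι _ k p hr, e, mom_gauge _ _ lam hlam]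
    rfl
  have hslope : ∀ t : V → ℝ, slope pw p X t (ι k) (ι v) = slope (pw ∘ ι) p Y (t ∘ ι) k v := by
    intro t
    have h1 := slope_partial hpw p X (ι k) (ι v) t
    simp only [hmom, Function.update_comp_eq_of_injective _ hι] at h1
    exact h1.unique (slope_partial hpw' p Y k v (t ∘ ι))
  simp only [pair, hslope, Function.comp_def]

/-- The roots of `-X` are the negatives of the roots of `X`. -/
lemma roots_neg (X : Matrix V V ℂ) (hpw : IsProb pw) {z : ℂ}
    (hz : z ∈ (charMix X pw Finset.univ).roots) : -z ∈ (charMix (-X) pw Finset.univ).roots := by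
  rw [Polynomial.mem_roots (charMix_monic (-X) hpw _).1.ne_zero]
  rw [Polynomial.mem_roots'] at hz
  have h0 := hz.2
  simp only [Polynomial.IsRoot, charMix_eval] at h0 ⊢
  have hneg : ∀ f : V → Fin r, (block (-X) f Finset.univ fun _ => -z).det =
      (-1) ^ Fintype.card V * (block X f Finset.univ fun _ => z).det := by
    intro f
    rw [← Matrix.det_neg]
    congr 1
    ext a b
    simp only [block, Matrix.of_apply, Matrix.neg_apply, Finset.mem_univ, and_self, if_true]
    split_ifs <;> ring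
  simp only [mixDet, hneg, mul_left_comm _ ((-1 : ℂ) ^ Fintype.card V), ← Finset.mul_sum]
  simp only [mixDet] at h0
  rw [h0, mul_zero]

variable {H : Type} [NormedAddCommGroup H] [InnerProductSpace ℂ H] [CompleteSpace H]
  {M A : VonNeumannAlgebra H} {e : H →L[ℂ] H}
  (hM : IsMASA M A) (he : IsPr A e) {D : Gen M A e} {χ : Pt A}
  {U : Finset (Pt A)} {R : Pt A → (H →L[ℂ] H)} (hR : IsFrame M e χ U R)
  (hsa : IsSelfAdjoint D.op) (hl : (-1 : ℝ) • e ≤ D.op) (hu : D.op ≤ e)
include hM he hR hsa hl hu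

/-- Every moment of even order of a uniformly coloured window, scaled by at most one, is at most
the corresponding power of `2 / √r`. -/
lemma mom_window_le {n : ℕ} {E : Fin n → (H →L[ℂ] H)} (hE : IsPartition A e E)
    (hE0 : ∀ i, E i * D.op * E i = 0) {r p : ℕ} (hr : 2 ≤ r) (hp : Even p) (d : U → ℝ)
    (hd : ∀ a, 0 ≤ d a ∧ d a ≤ 1) (k : U) :
    (mom (scaled (wmat D.a D.g χ R U) d) (cw fun (_ : U) (_ : Fin r) => (1 / r : ℝ)) k p).re ≤
      (2 / Real.sqrt r) ^ p := by
  set S : St A r := fun η => (fun _ => (1 / r : ℝ), if h : η ∈ U then d ⟨η, h⟩ else 0) with hS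
  have hrR : (r : ℝ) ≠ 0 := Nat.cast_ne_zero.2 (by omega)
  have hok : ∀ η, Ok (S η) := fun η => by
    refine ⟨⟨fun _ => by simp only [hS]; positivity, by simp [hS, hrR]⟩, ?_⟩
    simp only [hS]
    split_ifs with h
    exacts [hd _, ⟨le_rfl, zero_le_one⟩]
  set E₀ := edge (-1) 0 (Real.sqrt r) r with hE₀
  have hb : 1 < Real.sqrt (r : ℝ) := by
    rw [Real.lt_sqrt zero_le_one, one_pow]
    exact_mod_cast (show 1 < r by omega)
  have hE₀le : E₀ ≤ 2 / Real.sqrt r := by
    rw [hE₀, edge_first' hb, le_div_iff₀ (by linarith), add_mul, div_mul_cancel₀ _ (by linarith),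
      div_mul_eq_mul_div, Real.mul_self_sqrt (Nat.cast_nonneg r), div_self hrR]
    norm_num
  have hroot : ∀ σ : ℂ, σ = 1 ∨ σ = -1 →
      ∀ z ∈ (charMix (wsc σ D.a D.g χ U R S) (Op.wt S U) Finset.univ).roots, z.re ≤ E₀ := by
    intro σ hσ z hz
    refine Edge.edge_ok U r (wsc σ D.a D.g χ U R S) (-1) 0 _ (by omega)
      (wsc_hermitian hM he D hR hsa hσ) (by norm_num) le_rfl zero_le_one hb (fun v => ?_)
      (fun a => by rw [wsc_diag hM he D hR hsa hE hE0 σ a]; simp) z hz
    obtain ⟨h1, h2⟩ := form_bounds hM he D hR hl hu fun a => ((S a).2 : ℂ) * v a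
    set q := (star v ⬝ᵥ (wsc σ D.a D.g χ U R S).mulVec v).re with hq
    set q' := (star (fun a : U => ((S a).2 : ℂ) * v a) ⬝ᵥ
      (wmat D.a D.g χ R U).mulVec fun a => ((S a).2 : ℂ) * v a).re with hq'
    have hqq : q = σ.re * q' := by
      have hs : σ.im = 0 := by rcases hσ with rfl | rfl <;> simp
      have e1 : star v ⬝ᵥ (wsc σ D.a D.g χ U R S).mulVec v =
          σ * (star (fun a : U => ((S a).2 : ℂ) * v a) ⬝ᵥ
            (wmat D.a D.g χ R U).mulVec fun a => ((S a).2 : ℂ) * v a) := by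
        simp only [dotProduct, Matrix.mulVec, Finset.mul_sum, wsc, wmat, Matrix.of_apply,
          Pi.star_apply, star_mul', Complex.star_def, Complex.conj_ofReal]
        exact Finset.sum_congr rfl fun a _ => Finset.sum_congr rfl fun b _ => by ring
      rw [hq, hq', e1, Complex.mul_re, hs, zero_mul, sub_zero]
    have hdn : ∑ a : U, ‖((S (a : Pt A)).2 : ℂ) * v a‖ ^ 2 ≤ ∑ a, ‖v a‖ ^ 2 := by
      refine Finset.sum_le_sum fun a _ => ?_
      obtain ⟨-, h0, h1⟩ := hok (a : Pt A)
      rw [norm_mul, Complex.norm_real, Real.norm_eq_abs, abs_of_nonneg h0]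
      exact pow_le_pow_left₀ (by positivity) (mul_le_of_le_one_left (norm_nonneg _) h1) 2
    rw [hqq]
    rcases hσ with rfl | rfl <;> simp only [Complex.one_re, Complex.neg_re] <;>
      constructor <;> linarith
  have hσ1 : (1 : ℂ) = 1 ∨ (1 : ℂ) = -1 := .inl rfl
  have hmem : ∀ z ∈ (charMix (wsc 1 D.a D.g χ U R S) (Op.wt S U) Finset.univ).roots,
      -E₀ ≤ z.re := fun z hz => by
    have h := hroot (-1) (.inr rfl) (-z) (by
      rw [show wsc (-1) D.a D.g χ U R S = -wsc 1 D.a D.g χ U R S by ext a b; simp [wsc]]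
      exact roots_neg (wsc 1 D.a D.g χ U R S) (isProb_wt hok U) hz)
    simp only [Complex.neg_re] at h
    linarith
  have e1 : scaled (wmat D.a D.g χ R U) d = wsc 1 D.a D.g χ U R S := by
    ext u v; simp [wsc, scaled, wmat, hS]
  have e2 : (fun (_ : U) (_ : Fin r) => (1 / r : ℝ)) = Op.wt S U := rfl
  have hmomeq : (mom (scaled (wmat D.a D.g χ R U) d) (cw fun (_ : U) (_ : Fin r) => (1 / r : ℝ))
      k p).re = qmom (wsc 1 D.a D.g χ U R S) (Op.wt S U) k (Polynomial.X ^ p) := by
    rw [e1, e2, qmom, Polynomial.natDegree_X_pow, Finset.sum_eq_single p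
      (fun j _ hj => by rw [Polynomial.coeff_X_pow, if_neg hj, zero_mul]) (by simp),
      Polynomial.coeff_X_pow, if_pos rfl, one_mul]
  rw [hmomeq]
  refine qmom_le (wsc_hermitian hM he D hR hsa hσ1) (isProb_wt hok U) zero_le_one
    (wsc_opBound hM he D hR hsa hl hu hok hσ1) k _ _ fun z hz _ _ => ?_
  rw [Polynomial.eval_pow, Polynomial.eval_X, ← hp.pow_abs]
  refine pow_le_pow_left₀ (abs_nonneg _) ((abs_le.2 ⟨?_, ?_⟩).trans hE₀le) p
  exacts [hmem z hz, hroot 1 hσ1 z hz]

end Vale.Agent.P078.Twist.Start
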